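import Vale.Agent.P366Q.K.Cap
import Vale.Agent.P366Q.T.Subs

/-!
# P366Q: the closed rows L2B, CAP
-/

namespace Vale.Agent.P366M.Y

theorem l2b : L2B := l2b_of subs

theorem cap_ : CAP := cap_of subs

end Vale.Agent.P366M.Y
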