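import Vale.Agent.P366Q.Sk3
import Vale.Agent.P366Q.J.Defs
import Vale.Agent.P366Q.F.Bas
import Vale.Agent.P366Y.K.Hic

/-!
# P366Q: row HIC
-/

open Set Metric Filter Topology
open Vale.Agent.P366.Stmt Vale.Agent.P366Z Vale.Agent.P366Y

noncomputable section

namespace Vale.Agent.P366M.Y

/-- the bound of the curvature where the warping function is constant -/
theorem scal_gb_bd {n : ℕ} {M : Type} [Mfe n M] {g : Fld n M} (hg : Met g) {c : ℝ} (hc : 0 < c)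
    (ρ H : ℝ) : ∃ C, ∀ (f w : M → ℝ) (x : M), Smooth f → ‖px x‖ ≤ ρ → ‖D1 f x‖ ≤ H →
      ‖D2 f x‖ ≤ H → (w =ᶠ[𝓝 x] fun _ => c) → |scal (gb g w f) x| ≤ C := by
  obtain ⟨C₀, h0⟩ := pt_bd M ρ
  obtain ⟨K, K0, hK⟩ := F.cg_bd M
  obtain ⟨C, hC⟩ := unif (M := M) (P := fun e C => ∀ (f w : E n → ℝ) (y : E n),
    P366.Stmt.Smooth f →
    ‖y‖ ≤ C₀ → ‖P366Y.D1 f y‖ ≤ H + K * H → ‖P366Y.D2 f y‖ ≤ H + K * H →
    (w =ᶠ[𝓝 y] fun _ => c) → |P366.Stmt.scal (P366Y.gb (rep e g) w f) y| ≤ C)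
    (fun e a b ab h f w y h1 h2 h3 h4 h5 => (h f w y h1 h2 h3 h4 h5).trans ab)
    fun x => P366Y.HicX.bd (hg.loc' x) hc C₀ _
  refine ⟨C, fun f w x hf hx h1 h2 hw => ?_⟩
  have H0 : 0 ≤ H := (norm_nonneg _).trans h1
  rw [scal, F.rep_gb (ch_mem x) g w hf.diff]
  refine hC x _ _ _ (hf.lc (ch_mem x)) (h0 x hx)
    (h1.trans (le_add_of_nonneg_right (by positivity))) ?_ (loc_congr hw)
  rw [F.d2_rep (ch_mem x) hf.two, rep_pt, F.rC_pt]
  exact norm_add_le_of_le h2 ((hK x _ (mem_ball_self one_pos) _).trans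
    (mul_le_mul_of_nonneg_left h1 K0))

/-- **row HIC** -/
theorem hic : HIC := by
  intro n M _ X P hX hP σ₀ A cY H hA
  have hg := J.mg hX
  obtain ⟨C, hC⟩ := scal_gb_bd hg two_pos X.ρ H
  obtain ⟨S, hS⟩ := (isCompact_px M X.ρ).exists_bound_of_continuousOn
    hg.sm_scal.cont.continuousOn
  refine ⟨|σ₀| + |S| + |C| + 1, by positivity, fun um hum ψ f u x hf hu h1 h2 hx h3 => ?_⟩
  have e0 := hP.η0
  have k1 := (abs_le.1 (hC f (fun y => P.φ (u y)) x hf hx h1 h2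
    ((hu.cont.continuousAt.eventually (lt_mem_nhds h3)).mono fun y hy =>
      hP.φhi _ (show 1 + P.η ≤ u y by linarith [e0.2])))).1
  have k2 : rc X.ρ x = 1 := J.rc_one (by linarith [hX.R1, hX.Rρ]) hx
  obtain ⟨k3, k4⟩ := J.rc_mem (X.R + 7) x
  have k5 : rc (X.R + 7) x * σ₀ ≤ |σ₀| :=
    (mul_le_mul_of_nonneg_left (le_abs_self _) k3).trans (mul_le_of_le_one_left (abs_nonneg _) k4)
  have k6 : (1 - rc (X.R + 7) x) * scal X.g x ≤ |S| :=
    (mul_le_mul_of_nonneg_left ((le_abs_self _).trans ((hS x hx).trans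
      (le_abs_self _))) (sub_nonneg.2 k4)).trans
      (mul_le_of_le_one_left (abs_nonneg _) (sub_le_self _ k3))
  have k7 := mul_nonneg hA (Real.smoothTransition.nonneg (4 * f x ^ 2 / P.F₀ ^ 2 - 1))
  rw [Lam, k2, hP.β0 _ (show 1 - P.η ≤ u x by linarith [e0.1]),
    Real.smoothTransition.one_of_one_le (x := u x - _) (by simp only; linarith)]
  simp only
  linarith [le_abs_self C]

end Vale.Agent.P366M.Y
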