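import Vale.Agent.P366Q.Sk3
import Vale.Agent.P366Q.J.Defs
import Vale.Agent.P366Q.T.Big
import Vale.Agent.P366Q.F.Chg
import Vale.Agent.P366Y.J.Ga

/-!
# P366Q: the nonlocal coefficients
-/

open MeasureTheory Metric Filter Topology Set
open scoped ContDiff ENNReal
open Vale.Agent.P366 hiding E
open Vale.Agent.P366.Stmt Vale.Agent.P366Z Vale.Agent.P366Y

noncomputable section

namespace Vale.Agent.P366M.Y

namespace NlX

variable {n : ℕ} {M : Type} [Mfe n M] {V W : Type} [NormedAddCommGroup V] [NormedSpace ℝ V]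
  [NormedAddCommGroup W] [NormedSpace ℝ W] {ρ θ A A' : ℝ}

theorem lipK {Φ : V → W} {S : Set V} (hS : IsCompact S) (hc : Convex ℝ S)
    (hΦ : ∀ q ∈ S, ContDiffAt ℝ ∞ Φ q) :
    ∃ Λ ≥ (0 : ℝ), ∀ q ∈ S, ‖Φ q‖ ≤ Λ ∧ ∀ q' ∈ S, ‖Φ q - Φ q'‖ ≤ Λ * ‖q - q'‖ := by
  obtain ⟨a, ha⟩ := hS.exists_bound_of_continuousOn fun q hq =>
    (hΦ q hq).continuousAt.continuousWithinAt
  obtain ⟨b, hb⟩ := hS.exists_bound_of_continuousOn (f := fderiv ℝ Φ) fun q hq =>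
    ((hΦ q hq).continuousAt_fderiv (by simp)).continuousWithinAt
  refine ⟨max (max a b) 0, le_max_right _ _, fun q hq => ⟨(ha q hq).trans
    (le_max_of_le_left (le_max_left _ _)), fun q' hq' => ?_⟩⟩
  exact hc.norm_image_sub_le_of_norm_fderiv_le (fun z hz => (hΦ z hz).differentiableAt (by simp))
    (fun z hz => (hb z hz).trans (le_max_of_le_left (le_max_right _ _))) hq' hq

omit [NormedSpace ℝ V] [NormedSpace ℝ W] in
theorem ct_prod {w : (M → ℝ) → M → V} {w' : (M → ℝ) → M → W} (h : F.Ct ρ w) (h' : F.Ct ρ w') :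
    F.Ct ρ fun f x => (w f x, w' f x) := fun e he =>
  let ⟨d, d0, hd⟩ := h e he
  let ⟨d', d0', hd'⟩ := h' e he
  ⟨min d d', lt_min d0 d0', fun f f' hf hf' k x =>
    max_le (hd f f' hf hf' (fun y hy => (k y hy).trans (min_le_left _ _)) x)
      (hd' f f' hf hf' (fun y hy => (k y hy).trans (min_le_right _ _)) x)⟩

omit [NormedSpace ℝ V] in
theorem ct_const (w : M → V) : F.Ct ρ fun _ => w := fun e he =>
  ⟨1, one_pos, fun _ _ _ _ _ _ => by simpa using he.le⟩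

omit [NormedSpace ℝ V] in
theorem ct_congr {w w' : (M → ℝ) → M → V} (h : F.Ct ρ w) (e : ∀ u, Continuous u → w' u = w u) :
    F.Ct ρ w' := fun a a0 =>
  (h a a0).imp fun _ k => ⟨k.1, fun u u' hu hu' => e u hu ▸ e u' hu' ▸ k.2 u u' hu hu'⟩

theorem ct_comp {Φ : V → W} {S : Set V} (hS : IsCompact S) (hc : Convex ℝ S)
    (hΦ : ∀ q ∈ S, ContDiffAt ℝ ∞ Φ q) {w : (M → ℝ) → M → V} (hw : F.Ct ρ w)
    (hm : ∀ u, Continuous u → ∀ x, w u x ∈ S) : F.Ct ρ fun u x => Φ (w u x) := fun e he => by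
  obtain ⟨Λ, Λ0, h⟩ := lipK hS hc hΦ
  obtain ⟨d, d0, hd⟩ := hw (e / (Λ + 1)) (by positivity)
  refine ⟨d, d0, fun u u' hu hu' k x => ((h _ (hm u hu x)).2 _ (hm u' hu' x)).trans ?_⟩
  exact (mul_le_mul (le_add_of_nonneg_right zero_le_one) (hd u u' hu hu' k x) (norm_nonneg _)
    (by positivity)).trans_eq (mul_div_cancel₀ _ (by positivity))

theorem mono {w : (M → ℝ) → M → W} (h : F.NlS ρ θ A w) (e : A ≤ A') : F.NlS ρ θ A' w :=
  ⟨h.sm, fun u hu => (h.ho u hu).mono e, h.ct⟩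

theorem congr {w w' : (M → ℝ) → M → W} (h : F.NlS ρ θ A w)
    (e : ∀ u, Continuous u → w' u = w u) : F.NlS ρ θ A w' :=
  ⟨fun u hu => e u hu ▸ h.sm u hu, fun u hu => e u hu ▸ h.ho u hu, ct_congr h.ct e⟩

theorem pair {w : (M → ℝ) → M → V} {w' : (M → ℝ) → M → W} (h : ∃ A, F.NlS ρ θ A w)
    (h' : ∃ A, F.NlS ρ θ A w') : ∃ A, F.NlS ρ θ A fun u x => (w u x, w' u x) :=
  let ⟨a, ha⟩ := h
  let ⟨b, hb⟩ := h'
  ⟨max a b, fun u hu => (ha.sm u hu).prodMk (hb.sm u hu), fun u hu x =>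
    ((ha.ho u hu).mono (le_max_left _ _) x).prod ((hb.ho u hu).mono (le_max_right _ _) x),
    ct_prod ha.ct hb.ct⟩

theorem comp {Φ : V → W} {S : Set V} (hS : IsCompact S) (hc : Convex ℝ S)
    (hΦ : ∀ q ∈ S, ContDiffAt ℝ ∞ Φ q) {w : (M → ℝ) → M → V} (hw : F.NlS ρ θ A w)
    (hm : ∀ u, Continuous u → ∀ x, w u x ∈ S) : ∃ A', F.NlS ρ θ A' fun u x => Φ (w u x) := by
  obtain ⟨Λ, Λ0, h⟩ := lipK hS hc hΦ
  have A0 := (hw.ho _ continuous_zero).nn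
  refine ⟨Λ * (1 + A), fun u hu => cd_of_cAt le_rfl fun x =>
    (hΦ _ (hm u hu x)).compM (hw.sm u hu).contDiffAt, fun u hu x => ⟨fun y _ =>
      (h _ (hm u hu _)).1.trans (le_mul_of_one_le_right Λ0 (by linarith)), fun y hy z hz => ?_⟩,
    ct_comp hS hc hΦ hw.ct hm⟩
  refine ((h _ (hm u hu _)).2 _ (hm u hu _)).trans ?_
  rw [mul_assoc]
  exact mul_le_mul_of_nonneg_left (((hw.ho u hu x).2 y hy z hz).trans
    (mul_le_mul_of_nonneg_right (by linarith) (rp0 y z θ))) Λ0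

theorem tame0 {φ : M → ℝ} (h : Smooth φ) {R : ℝ} (h0 : ∀ x, R ≤ ‖px x‖ → φ x = 0) : Tame φ :=
  tame_of h (R := R + 1) fun _ hx => ⟨0, (ev_lt_px (show R < _ by linarith)).mono
    fun y hy => h0 y hy.le⟩

theorem c2h0 (hθ : θ ∈ Ioo (0 : ℝ) 1) {φ : M → ℝ} (h : Smooth φ) {R : ℝ}
    (h0 : ∀ x, R ≤ ‖px x‖ → φ x = 0) : ∃ A, C2H θ A φ := by
  have t := tame0 h h0
  obtain ⟨S, -, hS⟩ := bdd_of_out h.cont (R := R) (C := 0) fun x hx => by simp [h0 x hx.le]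
  obtain ⟨a, ha⟩ := t.hoS hS
  obtain ⟨b, hb⟩ := t.hoC
  obtain ⟨c, hc⟩ := t.hoT bg_met (flat_bg le_rfl)
  exact ⟨8 * max a (max b c), h.two, (ha.mono (le_max_left _ _)).of_one hθ.1.le hθ.2.le,
    (hb.mono (le_max_of_le_right (le_max_left _ _))).of_one hθ.1.le hθ.2.le,
    (hc.mono (le_max_of_le_right (le_max_right _ _))).of_one hθ.1.le hθ.2.le⟩

theorem nl0 (hθ : θ ∈ Ioo (0 : ℝ) 1) {φ : M → ℝ} (h : Smooth φ) {R : ℝ}
    (h0 : ∀ x, R ≤ ‖px x‖ → φ x = 0) : ∃ A, F.NlS ρ θ A fun _ => φ :=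
  let ⟨A, hA⟩ := c2h0 hθ h h0
  ⟨A, fun _ _ => h, fun _ _ => hA.2.1, ct_const φ⟩

theorem d1_mul {χ f : M → ℝ} (hχ : CD 2 χ) (hf : CD 2 f) :
    D1 (fun x => χ x * f x) = fun x => f x • D1 χ x + χ x • D1 f x := funext fun x =>
  funext fun i => (pd_mul (diff2 hχ.contDiffAt) (diff2 hf.contDiffAt) i).trans (by
    simp only [D1, Pi.add_apply, Pi.smul_apply, smul_eq_mul, mul_comm])

theorem d2_mul {χ f : M → ℝ} (hχ : CD 2 χ) (hf : CD 2 f) :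
    D2 (fun x => χ x * f x) = fun x => χ x • D2 f x + f x • D2 χ x +
      ((fun i j => D1 χ x i * D1 f x j) + fun i j => D1 f x i * D1 χ x j) :=
  funext fun _ => funext fun i => funext fun j => hess_mul hχ.contDiffAt hf.contDiffAt i j

theorem c2h_mul {χ f : M → ℝ} (hχ : C2H θ A χ) (hf : C2H θ A' f) :
    C2H θ (8 * A * A') fun x => χ x * f x := by
  have p := mul_nonneg hχ.2.1.nn hf.2.1.nn
  refine ⟨hχ.1.mul hf.1, (hχ.2.1.mul hf.2.1).mono (by linarith), ?_, ?_⟩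
  · rw [d1_mul hχ.1 hf.1]
    exact ((HoC.smul hf.2.1 hχ.2.2.1).add (HoC.smul hχ.2.1 hf.2.2.1)).mono (by linarith)
  · rw [d2_mul hχ.1 hf.1]
    exact (((HoT.smul hχ.2.1 hf.2.2.2).add (HoT.smul hf.2.1 hχ.2.2.2)).add
      ((hχ.2.2.1.tens hf.2.2.1).add (hf.2.2.1.tens hχ.2.2.1))).mono (by linarith)

/-- the coefficients as a function of the values -/
def l3 (P : Pa) (c : Cu) (q : ℝ × ℝ × ℝ × ℝ × ℝ × ℝ × ℝ) : Fin 3 → ℝ :=
  ![q.1 * c.σ₀ + (1 - q.1) * q.2.2.2.1 -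
      c.A * Real.smoothTransition (4 * q.2.2.2.2.1 ^ 2 / P.F₀ ^ 2 - 1),
    q.2.2.2.2.2.1 * (c.cY * (1 + ((1 - q.1 * P.Gs q.2.1 q.2.2.1 * q.2.2.1) *
      (1 + (q.2.2.2.2.2.2 * P.φ₀) ^ 2 * q.2.2.1))⁻¹)) +
      c.A * Real.smoothTransition (4 * q.2.2.2.2.1 ^ 2 / P.F₀ ^ 2 - 1),
    -(q.2.2.2.2.2.1 * c.A')]

theorem c_l3 {P : Pa} {C : ℝ} (c : Cu) {q : ℝ × ℝ × ℝ × ℝ × ℝ × ℝ × ℝ} (r1 : q.1 ≤ 1)
    (t0 : 0 ≤ q.2.2.1) (L0 : 0 ≤ P.L) (hG : P366Y.J.Ga P C q.2.1 q.2.2.1) :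
    ContDiffAt ℝ ∞ (l3 P c) q := by
  have h1 : ContDiff ℝ ∞ fun q : ℝ × ℝ × ℝ × ℝ × ℝ × ℝ × ℝ =>
      c.A * Real.smoothTransition (4 * q.2.2.2.2.1 ^ 2 / P.F₀ ^ 2 - 1) :=
    contDiff_const.mul (Real.smoothTransition.contDiff.comp (by fun_prop))
  have h2 : 0 < 1 - q.1 * P.Gs q.2.1 q.2.2.1 * q.2.2.1 := by
    have k1 := lt_of_lt_of_le (by positivity) hG.io1
    have k2 := mul_le_mul_of_nonneg_right r1 (mul_nonneg t0 hG.Gs0)
    unfold P366Y.J.io at k1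
    linarith
  have h3 : ContDiffAt ℝ ∞ (fun q : ℝ × ℝ × ℝ × ℝ × ℝ × ℝ × ℝ => P.Gs q.2.1 q.2.2.1) q :=
    ContDiffAt.comp (f := fun q : ℝ × ℝ × ℝ × ℝ × ℝ × ℝ × ℝ => (q.2.1, q.2.2.1)) q hG.sGs
      (by fun_prop)
  refine contDiffAt_pi.2 fun i => ?_
  fin_cases i
  · exact ContDiffAt.sub (by fun_prop) h1.contDiffAt
  · exact (ContDiffAt.mul (by fun_prop) (contDiffAt_const.mul (contDiffAt_const.add (ContDiffAt.inv
      ((contDiffAt_const.sub ((contDiffAt_fst.mul h3).mul (by fun_prop))).mul (by fun_prop))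
        (mul_pos h2 (by positivity)).ne')))).add h1.contDiffAt
  · exact ContDiffAt.neg (by fun_prop)

end NlX

open NlX in
/-- **NL** -/
theorem nl : NL := by
  intro n M _ X CK hX
  obtain ⟨C, -, hG⟩ := P366Y.J.ga
  refine ⟨C, fun P hP θ hθ K A ψ f h1 h2 => ?_⟩
  have R1 := hX.R1
  have Rρ := hX.Rρ
  have hg := J.mg hX
  have hr : ∀ r, 0 ≤ r → ∀ x : M, r + 1 ≤ ‖px x‖ → rc r x = 0 := fun r h x => J.rc_zero h
  obtain ⟨B₁, hχ⟩ := c2h0 hθ (J.sm_rc (M := M) (X.R + 5)) (hr _ (by linarith))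
  have hF : ∀ h, Continuous h → C2H θ (8 * B₁ * K) (fh X (f h)) := fun h hh =>
    c2h_mul hχ (h1 h hh).2.2
  have sF : ∀ h, Continuous h → Smooth (fh X (f h)) := fun h hh =>
    CD.mul (J.sm_rc _) (h1 h hh).2.1
  obtain ⟨a, ha⟩ : ∃ a : Fld n M, a = fun x i j => rc (X.R + 7) x * up X.g i j x := ⟨_, rfl⟩
  obtain ⟨B₂, hU⟩ := hoU_sm (T := a) (ha ▸ SmU.smul (J.sm_rc _) hg.sm_up) (R := X.R + 7 + 1)
    (c := 0) fun x hx => by
      funext i j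
      simp [ha, hr _ (by linarith) x hx]
  have et : ∀ h, ip X.g (fh X (f h)) (fh X (f h)) =
      fun x => pr2 (a x) fun i j => D1 (fh X (f h)) x i * D1 (fh X (f h)) x j := fun h => by
    funext x
    rcases le_or_gt ‖px x‖ (X.R + 7) with k | k
    · simp only [ip, pr2, ha, J.rc_one (by linarith) k, one_mul, D1, mul_assoc]
    · have e : fh X (f h) =ᶠ[𝓝 x] fun _ => 0 := (ev_lt_px k).mono fun y hy => by
        rw [fh, hr _ (by linarith) y (by linarith), zero_mul]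
      simp [ip, pr2, D1, pd_zero_of_ev e]
  have c0 : F.Ct X.ρ fun h x => ((rc (X.R + 5) x, D1 (rc (X.R + 5)) x, D2 (rc (X.R + 5)) x),
      f h x, D1 (f h) x, D2 (f h) x) := ct_prod (ct_const _) fun e he => (h2 e he).imp fun d k =>
    ⟨k.1, fun h h' hh hh' k1 x =>
      let ⟨_, a2, a3, a4⟩ := k.2 h h' hh hh' k1 x
      max_le a2 (max_le a3 a4)⟩
  have m0 : ∀ h, Continuous h → ∀ x, ((rc (X.R + 5) x, D1 (rc (X.R + 5)) x, D2 (rc (X.R + 5)) x),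
      f h x, D1 (f h) x, D2 (f h) x) ∈ closedBall 0 (max B₁ K) := fun h hh x =>
    let ⟨_, b1, b2, b3⟩ := (h1 h hh).2.2
    mem_closedBall_zero_iff.2 (max_le_max (max_le (hχ.2.1.bd x) (max_le (hχ.2.2.1.bd x)
      (hχ.2.2.2.bd x))) (max_le (b1.bd x) (max_le (b2.bd x) (b3.bd x))))
  have k0 := isCompact_closedBall (0 : (ℝ × Vc n × Mx n) × ℝ × Vc n × Mx n) (max B₁ K)
  have c1 : F.Ct X.ρ fun h => fh X (f h) :=
    ct_comp (Φ := fun q => q.1.1 * q.2.1) k0 (convex_closedBall _ _) (by fun_prop) c0 m0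
  have c2 : F.Ct X.ρ fun h => D1 (fh X (f h)) := ct_congr
    (ct_comp (Φ := fun q : (ℝ × Vc n × Mx n) × ℝ × Vc n × Mx n =>
      q.2.1 • q.1.2.1 + q.1.1 • q.2.2.1) k0 (convex_closedBall _ _)
      (by fun_prop) c0 m0) fun h hh => d1_mul hχ.1 (h1 h hh).2.2.1
  have c3 : F.Ct X.ρ fun h => D2 (fh X (f h)) := ct_congr
    (ct_comp (Φ := fun q : (ℝ × Vc n × Mx n) × ℝ × Vc n × Mx n =>
      q.1.1 • q.2.2.2 + q.2.1 • q.1.2.2 +
      ((fun i j => q.1.2.1 i * q.2.2.1 j) + fun i j => q.2.2.1 i * q.1.2.1 j)) k0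
      (convex_closedBall _ _) (by fun_prop) c0 m0) fun h hh => d2_mul hχ.1 (h1 h hh).2.2.1
  have c4 : F.Ct X.ρ fun h => ip X.g (fh X (f h)) (fh X (f h)) := ct_congr
    (ct_comp (Φ := fun q : Mx n × Vc n => pr2 q.1 fun i j => q.2 i * q.2 j)
      (isCompact_closedBall 0 (max B₂ (8 * B₁ * K))) (convex_closedBall _ _)
      (fun _ _ => by unfold pr2; fun_prop) (ct_prod (ct_const a) c2) fun h hh x =>
        mem_closedBall_zero_iff.2 (max_le_max (hU.bd x) ((hF h hh).2.2.1.bd x))) fun h _ => et h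
  refine ⟨8 * B₁ * K, fun h hh x => ⟨(hF h hh).2.2.1.bd x, (hF h hh).2.2.2.bd x⟩, fun c => ?_⟩
  obtain ⟨Cb, hB⟩ := exists_big M
  have n1 : ∃ A, F.NlS X.ρ θ A ψ := ⟨_, fun h hh => (h1 h hh).1.sm, fun h hh =>
    (hB.hoS1 (S := 2) (h1 h hh).1.sm.diff (fun x => abs_le.2
      ⟨by linarith [((h1 h hh).1.bd x).1, hP.ok.φ0.1], ((h1 h hh).1.bd x).2⟩) fun x =>
      (d1_le_fd ((h1 h hh).1.sm.diff x)).trans ((h1 h hh).1.lip x)).of_one hθ.1.le hθ.2.le,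
    fun e he => (h2 e he).imp fun d k => ⟨k.1, fun h h' hh hh' k1 x => (k.2 h h' hh hh' k1 x).1⟩⟩
  have n2 : ∃ A, F.NlS X.ρ θ A fun h => ip X.g (fh X (f h)) (fh X (f h)) :=
    ⟨_, fun h hh => hg.sm_ip (sF h hh) (sF h hh), fun h hh => et h ▸
      (hU.of_one hθ.1.le hθ.2.le).pr2 ((hF h hh).2.2.1.tens (hF h hh).2.2.1), c4⟩
  have n3 : ∃ A, F.NlS X.ρ θ A fun h => fh X (f h) := ⟨_, sF, fun h hh => (hF h hh).2.1, c1⟩
  obtain ⟨A₁, k1⟩ := pair (nl0 hθ (J.sm_rc (X.R + 7)) (hr _ (by linarith))) (pair n1 (pair n2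
    (pair (nl0 hθ hg.sm_scal (R := X.ρ) fun x hx => (F.farl n M X id (fun _ => 0) (fun _ => 0)
      (fun _ => 0) hX cd_const (fun _ _ => rfl) x hx).2.2.2.1) (pair n3
      (pair (nl0 hθ (J.sm_rc X.ρ) (hr _ (by linarith)))
        (nl0 hθ (J.sm_rc (X.R + 6)) (hr _ (by linarith))))))))
  obtain ⟨A₂, k2⟩ := comp (Φ := l3 P c) (isCompact_Icc.prod (isCompact_Icc.prod
    (isCompact_Icc.prod (isCompact_closedBall 0 A₁)))) ((convex_Icc 0 1).prod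
      ((convex_Icc P.φ₀ 2).prod ((convex_Icc 0 A₁).prod (convex_closedBall _ _))))
    (fun q hq => c_l3 c hq.1.2 hq.2.2.1.1 (zero_le_one.trans hP.ok.pos.2.1)
      (hG P hP.ok hP.big _ hq.2.1 _ hq.2.2.1.1)) k1 fun h hh x => by
      have b := (k1.ho h hh).bd x
      simp only [Prod.norm_mk, max_le_iff] at b
      exact ⟨J.rc_mem _ x, (h1 h hh).1.bd x, ⟨hg.ip_nonneg _ x, (le_abs_self _).trans b.2.2.1⟩,
        mem_closedBall_zero_iff.2 (max_le b.2.2.2.1 (max_le b.2.2.2.2.1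
          (max_le b.2.2.2.2.2.1 b.2.2.2.2.2.2)))⟩
  exact ⟨max (8 * B₁ * K) A₂, ⟨sF, fun h hh => (hF h hh).mono (le_max_left _ _), c2, c3⟩,
    mono k2 (le_max_right _ _)⟩

end Vale.Agent.P366M.Y
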