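import Vale.Agent.P366Q.J.Defs
import Vale.Agent.P366Y.K.Psi

/-!
# P366Q: the smoothed warping function
-/

open MeasureTheory Metric Filter Topology Set
open scoped ContDiff ENNReal
open Vale.Agent.P366 Vale.Agent.P366.Stmt Vale.Agent.P366Z Vale.Agent.P366Y

noncomputable section

namespace Vale.Agent.P366M.Y

open P366Y.PsiX (phi_lip phi_mono)

theorem rc_bd (n : ℕ) (M : Type) [Mfe n M] {r : ℝ} (hr : 0 ≤ r) :
    ∃ c ≥ (0 : ℝ), ∀ x : M, ‖fd (rc r) x‖ ≤ c := by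
  obtain ⟨c, c0, hc⟩ := bdd_of_const (J.sm_rc (M := M) r) (R := r + 1) (c := 0) fun y hy =>
    J.rc_zero hr hy.le
  exact ⟨c, c0.le, fun x => (hc x).2⟩

/-- **PSI**, with a positive constant -/
theorem psi_pos (n : ℕ) (M : Type) [Mfe n M] (X : Dat n M) (Cm : ℝ) (hR : 1 ≤ X.R) :
    ∃ A₀ > (0 : ℝ), ∀ P : Pa, P.Ok →
    ∀ δ ∈ Ioc (0 : ℝ) (1 / 2), ∀ S, Mol Cm δ S → ∀ u, Continuous u →
    Ps X P (A₀ / δ) (psi X P S u) ∧ (∀ x, P.φ (u x) ≤ psi X P S u x) ∧
    (∀ x, ∀ h ≥ (0 : ℝ), ‖px x‖ ≤ X.R + 4 → (∀ y ∈ ball x (2 * δ), u y ≤ u x + h) →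
      psi X P S u x ≤ P.φ (u x) + 2 * P.lam * h) ∧
    ∀ u', ∀ d ≥ (0 : ℝ), Continuous u' → (∀ y, ‖px y‖ ≤ X.R + 7 → |u y - u' y| ≤ d) →
      ∀ x, |psi X P S u x - psi X P S u' x| ≤ 2 * P.lam * d := by
  have hr : 0 ≤ X.R + 4 := by linarith
  obtain ⟨c, c0, hc⟩ := rc_bd n M hr
  refine ⟨2 * |Cm| + 2 * c + 1, by positivity, fun P hP δ ⟨d0, d1⟩ S hS u hu => ?_⟩
  have ct : ∀ {u : M → ℝ}, Continuous u → Continuous fun y => P.φ (u y) := fun hu =>
    hP.smφ.continuous.comp hu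
  have up : ∀ x (b : ℝ), (∀ y ∈ ball x (2 * δ), P.φ (u y) ≤ b) → S (fun y => P.φ (u y)) x ≤ b :=
    fun x b hb => by
      have := hS.loc _ (fun _ => b) x 0 (ct hu) continuous_const fun y hy => by
        rw [add_zero]; exact hb y hy
      rwa [hS.cst, add_zero] at this
  have s2 := fun x => up x 2 fun y _ => (hP.φb _).2
  have s1 := fun x => hS.ge _ x (ct hu)
  have lo : ∀ x, P.φ (u x) ≤ psi X P S u x := fun x => by
    have := J.rc_mem (X.R + 4) x
    unfold psi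
    nlinarith [s1 x, (hP.φb (u x)).2, mul_nonneg this.1 (sub_nonneg.2 (s1 x)),
      mul_nonneg (sub_nonneg.2 this.2) (sub_nonneg.2 (hP.φb (u x)).2)]
  have l0 : 0 ≤ P.lam := zero_le_one.trans hP.pos.1
  refine ⟨⟨CD.add (CD.mul (J.sm_rc _) (hS.sm _ (ct hu)))
    (CD.mul (CD.sub cd_const (J.sm_rc _)) cd_const),
    fun x => ⟨(hP.φb _).1.trans (lo x), ?_⟩, fun x hx => ?_, fun x => ?_⟩, lo,
    fun x h h0 hx hy => ?_, fun u' d hd hu' hy x => ?_⟩
  · unfold psi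
    nlinarith [mul_nonneg (J.rc_mem (X.R + 4) x).1 (sub_nonneg.2 (s2 x))]
  · rw [psi, J.rc_zero hr (by linarith)]
    ring
  · have a1 := (J.sm_rc (M := M) (X.R + 4)).diff x
    have a2 := (hS.sm _ (ct hu)).diff x
    have a3 : psi X P S u = fun x => rc (X.R + 4) x * (S (fun y => P.φ (u y)) x - 2) + 2 :=
      funext fun x => by rw [psi]; ring
    rw [a3, fd_add (a1.mul (a2.sub_const 2)) (dAt_const _), fd_const, add_zero,
      fd_mul a1 (a2.sub_const 2), fd_sub a2 (dAt_const _), fd_const, sub_zero]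
    have b1 := hS.lip _ x _ _ (ct hu) fun y => hP.φb (u y)
    have b2 : Cm * (2 - P.φ₀) / δ ≤ 2 * |Cm| / δ := div_le_div_of_nonneg_right (by
      nlinarith [le_abs_self Cm, abs_nonneg Cm, hP.φ0.1, hP.φ0.2]) d0.le
    have b3 : ‖rc (X.R + 4) x‖ ≤ 1 := by
      rw [Real.norm_of_nonneg (J.rc_mem _ x).1]; exact (J.rc_mem _ x).2
    have b4 : ‖S (fun y => P.φ (u y)) x - 2‖ ≤ 2 := abs_le.2
      ⟨by linarith [s1 x, (hP.φb (u x)).1, hP.φ0.1], by linarith [s2 x]⟩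
    have b5 : 2 * c ≤ (2 * c + 1) / δ := by
      rw [le_div_iff₀ d0]
      nlinarith
    refine (norm_add_le _ _).trans ?_
    rw [norm_smul, norm_smul, add_assoc, add_div]
    exact add_le_add ((mul_le_of_le_one_left (norm_nonneg _) b3).trans (b1.trans b2))
      ((mul_le_mul b4 (hc x) (norm_nonneg _) zero_le_two).trans b5)
  · rw [psi, J.rc_one hr hx, one_mul, sub_self, zero_mul, add_zero]
    refine up x _ fun y k => (phi_mono hP (hy y k)).trans ?_
    have := phi_lip hP (u x + h) (u x)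
    rw [add_sub_cancel_left, abs_of_nonneg h0] at this
    linarith [le_abs_self (P.φ (u x + h) - P.φ (u x))]
  · have e : psi X P S u x - psi X P S u' x =
        rc (X.R + 4) x * (S (fun y => P.φ (u y)) x - S (fun y => P.φ (u' y)) x) := by
      rw [psi, psi]; ring
    rcases le_or_gt (X.R + 4 + 1) ‖px x‖ with k | k
    · rw [e, J.rc_zero hr k, zero_mul, abs_zero]
      positivity
    have b1 : ∀ y ∈ ball x (2 * δ), |P.φ (u y) - P.φ (u' y)| ≤ 2 * P.lam * d := fun y k' =>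
      (phi_lip hP _ _).trans (mul_le_mul_of_nonneg_left (hy y (by
        linarith [norm_sub_norm_le (px y) (px x), mem_ball.1 k', px_le y x])) (by positivity))
    have b2 := hS.loc _ _ x (2 * P.lam * d) (ct hu) (ct hu') fun y k' => by
      linarith [(abs_le.1 (b1 y k')).2]
    have b3 := hS.loc _ _ x (2 * P.lam * d) (ct hu') (ct hu) fun y k' => by
      linarith [(abs_le.1 (b1 y k')).1]
    rw [e, abs_mul, abs_of_nonneg (J.rc_mem _ x).1]
    exact (mul_le_of_le_one_left (abs_nonneg _) (J.rc_mem _ x).2).trans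
      (abs_le.2 ⟨by linarith, by linarith⟩)

/-- **PSI** -/
theorem psi_ : PSI := fun n M _ X Cm hR => (psi_pos n M X Cm hR).imp fun _ h => h.2

end Vale.Agent.P366M.Y
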