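import Vale.Agent.P366Q.Sk3
import Vale.Agent.P366Q.C.Cap
import Vale.Agent.P366Q.T.L2b

/-!
# P366Q: the ceiling is not reached (row CAP)
-/

noncomputable section

namespace Vale.Agent.P366M.Y

theorem cap_of (hS : SUBS) : CAP := fun n M _ B k₀ h hn B1 h0 =>
  let ⟨r₀, r0, H⟩ := C.capb_of (l2b_of hS) n M B k₀ h hn B1 h0
  ⟨r₀, r0, fun r hr => H r hr.1 hr.2⟩

end Vale.Agent.P366M.Y
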