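import Vale.Agent.P366Q.Sk3
import Vale.Agent.P366Q.J.Defs
import Vale.Agent.P366Y.K.Sol

/-!
# P366Q: the assembly of the analysis
-/

open MeasureTheory Metric Filter Topology Set
open scoped ContDiff ENNReal
open Vale.Agent.P366 Vale.Agent.P366.Stmt Vale.Agent.P366Z Vale.Agent.P366Y
open Vale.Agent.P366Y.J (big_mono)

noncomputable section

namespace Vale.Agent.P366M.Y

section

variable {n : ℕ} {M : Type} [Mfe n M] {X : Dat n M} {P : Pa}

theorem Adm.mono {CK C C' : ℝ} (h : Adm X CK C P) (e : C' ≤ C) :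
    Adm X CK C' P := ⟨h.ok, h.fo, h.ck, big_mono h.ok h.big e⟩

theorem Ps.mono {A A' : ℝ} {ψ : M → ℝ} (h : Ps X P A ψ)
    (e : A ≤ A') : Ps X P A' ψ := ⟨h.sm, h.bd, h.two, fun x => (h.lip x).trans e⟩

theorem ex_ck (hX : X.Ok) : ∃ CK ≥ (1 : ℝ), ∀ x, n * normSq X.g X.K x ≤ CK ^ 2 := by
  have hc : Continuous fun x => (n : ℝ) * normSq X.g X.K x :=
    continuous_const.mul ((J.mg hX).sm_normSq hX.smK).cont
  obtain ⟨B, B0, hB⟩ := bdd_of_out hc (R := X.R + 3) (C := 0) fun y hy => by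
    simp [normSq, hX.K0 y hy.le]
  refine ⟨max B 1, le_max_right _ _, fun x => ?_⟩
  have k1 : (1 : ℝ) ≤ max B 1 := le_max_right _ _
  have := ((le_abs_self _).trans (hB x)).trans (le_max_left B 1)
  nlinarith

end

theorem sol_of (hJ : J.JALL2) (hU : F.UEX) (hM : C.MASS) (hPsi : PSI) (hMol : MOL) (hG : GBF)
    (hL : LAM) (hN : NL) (hF : FLO) (hH : HIC) (hT : TST) (hC : CAP) (hA : UFAR) :
    SOL := by
  intro n M _ X hX η hη
  have hn := hX.dim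
  obtain ⟨CK, CK1, f₀⟩ := ex_ck hX
  obtain ⟨σ₀, σ0, A₁, A10, hT⟩ := hT n M X CK hX
  refine ⟨σ₀, σ0, fun ℓ => ?_⟩
  obtain ⟨cY, cY0, C₁, hF⟩ := hF n M X CK hX
  obtain ⟨C₂, hT⟩ := hT cY cY0
  obtain ⟨C₃, hJ⟩ := hJ n M X hX
  obtain ⟨C₄, hL⟩ := hL n M X CK hX
  obtain ⟨C₅, hN⟩ := hN n M X CK hX
  obtain ⟨C₀, hC₀⟩ := ex_ge [C₁, C₂, C₃, C₄, C₅, ℓ, 4]
  obtain ⟨P, ok, big, eη, p1, eK⟩ := par C₀ η X.p₀ CK hη.1 hη.2 hX.p0 CK1
  have ad : Adm X CK C₀ P := ⟨ok, ⟨p1, fun x => eK ▸ f₀ x⟩, eK, big⟩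
  replace hF := hF P (ad.mono (hC₀ _ (by simp)))
  replace hT := hT P (ad.mono (hC₀ _ (by simp)))
  replace hL := hL P (ad.mono (hC₀ _ (by simp)))
  replace hN := hN P (ad.mono (hC₀ _ (by simp)))
  obtain ⟨N, -, θ, hθ, K₀, -, hJ⟩ := hJ P ⟨hX, ok, ad.fo, big_mono ok big (hC₀ _ (by simp))⟩
  obtain ⟨Cm, -, hMol⟩ := hMol n M
  obtain ⟨A₀, hPsi⟩ := hPsi n M X Cm hX.R1
  obtain ⟨a, a1, ha⟩ : ∃ a ≥ (1 : ℝ), A₀ ≤ a := ⟨max A₀ 1, le_max_right _ _, le_max_left _ _⟩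
  have a0 : 0 < a := by linarith
  obtain ⟨ε₁, ε1, hF⟩ := hF N θ K₀
  obtain ⟨ε₂, ε2, B, B1, h, h0, A₂, hT⟩ := hT N θ K₀ a a0
  obtain ⟨A₃, A31, hJ⟩ := hJ (min ε₁ ε₂) (lt_min ε1 ε2)
  obtain ⟨r₀, r0, hM⟩ := hM n M B 2 h hn B1 h0
  obtain ⟨r₁, r1, hC⟩ := hC n M B 2 h hn B1 h0
  obtain ⟨b, hA⟩ := hA n M X hX
  obtain ⟨A, hA₀⟩ := ex_ge [A₂, A₃, 2 * a, 4 * a / r₀, 4 * a / r₁]
  have A3 : A₃ ≤ A := hA₀ _ (by simp)
  have A1 : 1 ≤ A := A31.trans A3
  have A0 : 0 < A := by linarith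
  have δ0 : 0 < a / A := by positivity
  have δ1 : a / A ≤ 1 / 2 := by
    rw [div_le_iff₀ A0]
    linarith [hA₀ (2 * a) (by simp)]
  have δr : ∀ r > (0 : ℝ), 4 * a / r ≤ A → 4 * (a / A) ≤ r := fun r hr k => by
    rw [← mul_div_assoc, div_le_iff₀ A0]
    linarith [(div_le_iff₀ hr).1 k]
  obtain ⟨S, hS⟩ := hMol (a / A) ⟨δ0, by linarith⟩
  obtain ⟨K, Φ, hJ, hct⟩ := hJ A A3
  replace hPsi := hPsi P ok (a / A) ⟨δ0, δ1⟩ S hS
  have ps : ∀ u, Continuous u → Ps X P A (psi X P S u) := fun u hu => (hPsi u hu).1.mono (by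
    rw [div_le_iff₀ δ0, mul_div_cancel₀ _ A0.ne']
    exact ha)
  have jk := fun u hu => hJ _ (ps u hu)
  have l0 : 0 < 2 * P.lam := by linarith [ok.pos.1]
  obtain ⟨H, hH1, hN⟩ := hN θ hθ K A (psi X P S) (fun u => Φ (psi X P S u))
    (fun u hu => ⟨ps u hu, (jk u hu).sm, (jk u hu).c2⟩) (fun e he => by
      obtain ⟨d, d0, hd⟩ := hct e he
      refine ⟨min d e / (2 * P.lam), by positivity, fun u u' hu hu' k => ?_⟩
      have k1 := (hPsi u hu).2.2.2 u' _ (by positivity) hu' fun y hy =>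
        k y (by linarith [hX.Rρ])
      rw [mul_div_cancel₀ _ l0.ne'] at k1
      exact fun x => ⟨(k1 x).trans (min_le_right _ _),
        hd _ _ (ps u hu) (ps u' hu') (fun y => (k1 y).trans (min_le_left _ _)) x⟩)
  obtain ⟨A', A'0, hH⟩ := hH n M X P hX ok σ₀ A₁ cY H A10
  obtain ⟨um₀, hC⟩ := hC (4 * (a / A)) ⟨by positivity, δr _ r1 (hA₀ _ (by simp))⟩ (X.ρ + 1)
    (4 * gam n * (n - 2) * Stmt.omega n * P.η) b
  obtain ⟨um, um2, hum⟩ : ∃ um ≥ (2 : ℝ), um₀ ≤ um := ⟨max um₀ 2, le_max_right _ _, le_max_left _ _⟩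
  obtain ⟨A'', n2, n3⟩ := hN ⟨σ₀, A₁, cY, um, A'⟩
  have one : Smooth fun _ : M => (1 : ℝ) := cd_const
  have sf := fun u hu => (hG n M X P _ _ hX ok (jk u hu).sm one).2.1
  have la := fun u x z => la_eq X P ⟨σ₀, A₁, cY, um, A'⟩ (psi X P S u) (fh X (Φ (psi X P S u))) x z
  have hL' := fun u hu => hL ⟨σ₀, A₁, cY, um, A'⟩ A _ _ cY0 A'0 um2 (ps u hu) (jk u hu).sm
  have r5 : 0 ≤ X.R + 5 := by linarith [hX.R1]
  obtain ⟨u, su, lim, bd, eqn⟩ := hU n M X P.φ 3 (th3 P um) (fun u => fh X (Φ (psi X P S u)))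
    (fun u => lm3 X P ⟨σ₀, A₁, cY, um, A'⟩ (psi X P S u) (fh X (Φ (psi X P S u)))) θ A''
    (1 - 2 * P.η) (um + 1) hX
    { smφ := ok.smφ
      wb := (hG n M X P _ _ hX ok one one).1
      smθ := fun k => by
        fin_cases k
        · exact contDiff_const
        · exact ok.smβ
        · exact Real.smoothTransition.contDiff.comp (contDiff_id.sub contDiff_const)
      β0 := hθ
      ab := ⟨by linarith [ok.η0.2], by linarith [ok.η0.1], by linarith⟩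
      f0 := fun u _ x hx => by rw [fh, J.rc_zero r5 (by linarith), zero_mul]
      n2 := n2
      n3 := n3
      lo := fun u hu x hx k1 k2 => (la u x _).symm ▸
        hF _ (min_le_left _ _) A A1 K _ _ (ps u hu.cont) (jk u hu.cont) _ rfl σ0.le um2 u hu x hx
          k1 k2
      hi := fun u hu x hx _ k2 => (la u x _).symm ▸
        hH um um2 _ _ u x (sf u hu.cont) hu (hH1 u hu.cont x).1 (hH1 u hu.cont x).2 hx k2
      lo' := fun u hu x z hx k => (la u x _).symm ▸ (hL' u hu x z).1 hx k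
      hi' := fun u hu x z hx k => (la u x _).symm ▸ (hL' u hu x z).2.1 hx k
      far := fun u hu x z hx => (la u x _).symm ▸ (hL' u hu x z).2.2.1 hx }
  simp only [la] at eqn
  have cu := su.cont
  obtain ⟨-, -, sw, eg, far⟩ := hG n M X P _ u hX ok (jk u cu).sm su
  have γ0 : 0 < gam n := one_pos.trans (one_lt_gam hn)
  have u0 : ∀ x, 0 < u x := fun x => by linarith [(bd x).1, ok.η0.2]
  have harm : ∀ x, X.ρ + 1 ≤ ‖px x‖ → lap X.g u x = 0 := fun x hx => by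
    have k := eqn x
    rw [far x (by linarith), (hL' u cu x _).2.2.1 hx, zero_mul] at k
    exact (mul_eq_zero.1 k).resolve_left (by linarith)
  obtain ⟨β, as1, as2, hβ⟩ := hA u su lim (fun x => (u0 x).le) harm
  obtain ⟨T, lam, Λ, ϑ, tst, hϑ⟩ := hT _ (min_le_right _ _) A (hA₀ _ (by simp)) K _ _ u um β A' A'0
    (ps u cu) (jk u cu) (hPsi u cu).2.1 (fun x hx k => (hPsi u cu).2.2.1 x h h0.le hx k) su
    (fun x => (bd x).1) eqn as2
  have m1 := (hM _ _ _ _ _ _ _ _ _ _ _ _ _ _ (by positivity) (δr _ r0 (hA₀ _ (by simp))) tst).trans hϑ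
  have cap := hC _ _ _ _ _ _ _ _ _ _ _ _ _ tst hϑ hβ
  have n2 : (0 : ℝ) < n - 2 := by
    have : (3 : ℝ) ≤ n := by exact_mod_cast hn
    linarith
  rw [ok.φ1, mul_one] at m1
  have m2 := le_of_mul_le_mul_left m1 (by have := omega_pos (show 0 < n by omega); positivity)
  have b6 := big.b6
  have F0 := ok.pos.2.2.2.2.1
  refine ⟨wp X P u, fh X (Φ (psi X P S u)), u, P.φ₀, P.F₀, X.β₁ + β,
    { smw := sw
      smf := sf u cu
      smu := su
      φ0 := ⟨ok.φ0.1, ok.φ0.2, ?_, (hC₀ _ (by simp)).trans b6⟩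
      wlo := fun x hx => ?_
      w0 := fun x hx => ?_
      lo := fun x => eη ▸ (bd x).1
      inn := fun x hx => ?_
      out := fun x hx => ?_
      pos := fun x hx => ?_
      harm := harm
      asy := as1
      mass := by linarith }⟩
  · nlinarith [hC₀ 4 (by simp), ok.φ0.2]
  · rw [wp, J.rc_one (by linarith) hx, one_mul]
    exact (ok.φb _).1
  · rw [wp, J.rc_zero (by linarith) (by linarith), zero_mul]
  · have k : ‖px x‖ < X.R := not_le.1 fun k => by linarith [hX.far x k, hX.s0]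
    rw [fh, J.rc_one r5 (by linarith), one_mul]
    exact (jk u cu).inn x hx
  · have k := J.rc_mem (X.R + 5) x
    have k1 : 1 / A ^ 2 ≤ 1 := (div_le_one (by positivity)).2 (one_le_pow₀ A1)
    rw [fh, abs_mul, abs_of_nonneg k.1]
    exact (mul_le_of_le_one_left (abs_nonneg _) k.2).trans (((jk u cu).out x hx).trans k1)
  · refine ((hL' u cu x (u x)).2.2.2 hx fun k => (cap x k).trans hum).trans_eq ?_
    have k := eqn x
    rw [cl] at k
    rw [eg, eq_sub_iff_add_eq, ← sub_eq_zero]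
    have := (u0 x).ne'
    field_simp
    linarith

end Vale.Agent.P366M.Y
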